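import Vale.Agent.P261.H468.Spec

/-! # P261, leaf B1: a `k`-algebra endomorphism of `k[[X]]` is a substitution. -/

namespace Vale.Agent.P261

/-- A ring endomorphism of `k[[X]]` that fixes the constants and sends `X` into the maximal
ideal is the substitution `X ↦ φ X`. -/
theorem map_eq_subst {k : Type} [Field k] (φ : PowerSeries k →+* PowerSeries k)
    (halg : ∀ c, φ (PowerSeries.C c) = PowerSeries.C c)
    (hX : PowerSeries.constantCoeff (φ PowerSeries.X) = 0) (a : PowerSeries k) :
    φ a = PowerSeries.subst (φ PowerSeries.X) a := by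
  set y : PowerSeries k := φ PowerSeries.X with hy
  have hs : PowerSeries.HasSubst y := PowerSeries.HasSubst.of_constantCoeff_zero' hX
  have hXy : PowerSeries.X ∣ y := PowerSeries.X_dvd_iff.2 hX
  -- on polynomials
  have hpoly : ∀ q : Polynomial k, φ (q : PowerSeries k) = PowerSeries.subst y (q : PowerSeries k) := by
    intro q
    rw [PowerSeries.subst_coe hs]
    induction q using Polynomial.induction_on' with
    | add p q hp hq => rw [Polynomial.coe_add, map_add, hp, hq, map_add]
    | monomial n c =>
      rw [Polynomial.coe_monomial, PowerSeries.monomial_eq_C_mul_X_pow, map_mul, map_pow, halg,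
        Polynomial.aeval_monomial, ← hy]
      rfl
  ext n
  rw [PowerSeries.eq_X_pow_mul_shift_add_trunc (n + 1) a]
  generalize (PowerSeries.mk fun i => PowerSeries.coeff (i + (n + 1)) a) = b
  rw [map_add, map_mul, map_pow, ← hy, PowerSeries.subst_add hs, PowerSeries.subst_mul hs,
    PowerSeries.subst_pow hs, PowerSeries.subst_X hs, hpoly, map_add, map_add]
  have key : ∀ c : PowerSeries k, PowerSeries.coeff n (y ^ (n + 1) * c) = 0 := by
    intro c
    have hd : (PowerSeries.X : PowerSeries k) ^ (n + 1) ∣ y ^ (n + 1) * c :=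
      Dvd.dvd.mul_right (pow_dvd_pow_of_dvd hXy (n + 1)) c
    exact PowerSeries.X_pow_dvd_iff.1 hd n (Nat.lt_succ_self n)
  rw [key, key]

end Vale.Agent.P261
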