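import Vale.Agent.P261.H124.B1
import Vale.Agent.P261.H609.B2
import Vale.Agent.P261.H984.B4
import Vale.Agent.P261.H141.B3

/-! # P261, leaf B5: a form of weight zero on the curve is constant

If `f` has weight zero and is not constant then, by rigidity (B2), the automorphisms `γ` near `1`
act trivially on `k[[X]]`; so the series of `γ` is an endomorphism of the law `F`, hence near an
integer (B3), hence `γ` is near an integer and so central, which contradicts B4. -/

open Vale.Agent.P251.F Vale.Agent.P251 Vale.Agent.P217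

namespace Vale.Agent.P261

namespace H124

/-- A field with `p ^ (m+1)` elements is finite. -/
theorem finite_of_card {p m : ℕ} [Fact p.Prime] {k : Type} (hk : Nat.card k = p ^ (m + 1)) :
    Finite k :=
  Nat.finite_of_card_ne_zero (by rw [hk]; exact pow_ne_zero _ (Fact.out : p.Prime).ne_zero)

/-- A field with `p ^ (m+1)` elements has characteristic `p`. -/
theorem charP_of_card {p m : ℕ} [Fact p.Prime] {k : Type} [Field k]
    (hk : Nat.card k = p ^ (m + 1)) : CharP k p := by
  have := finite_of_card hk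
  have := Fintype.ofFinite k
  exact charP_of_card_eq_prime_pow (f := m + 1) (by rw [← hk, Nat.card_eq_fintype_card])

/-- If `f` has weight zero and is not constant, then `γ` near `1` acts trivially. -/
theorem exists_phi_eq_id {p m : ℕ} {k : Type} [Field k] [Finite k] {H : Law k}
    (L : Curve p m H) (f : PowerSeries k) (hf : f ∈ L.inv 0)
    (hnc : ∃ n, 1 ≤ n ∧ PowerSeries.coeff n f ≠ 0) :
    ∃ M : ℕ, ∀ γ ∈ AutF.congr H.toFG M, L.φ γ = RingHom.id _ := by
  obtain ⟨R, hR⟩ := rigid f hnc
  obtain ⟨M, hM⟩ := L.cont (R + 1)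
  refine ⟨M, fun γ hγ => ?_⟩
  have hX0 : PowerSeries.constantCoeff (L.φ γ PowerSeries.X) = 0 := by
    rw [L.red, PowerSeries.constantCoeff_X]
  have hφ := map_eq_subst (L.φ γ) (L.alg γ) hX0
  have h1 : L.φ γ f = f := by
    have := hf γ
    rwa [zpow_zero, Units.val_one, one_mul] at this
  have h2 : L.φ γ PowerSeries.X = PowerSeries.X :=
    hR _ (fun i hi => hM γ hγ PowerSeries.X i (Nat.lt_succ_of_le hi)) (by rw [← hφ, h1])
  ext a : 1
  rw [hφ, h2, PowerSeries.X_subst, RingHom.id_apply]

/-- If `γ` acts trivially then the series of `γ` is an endomorphism of `F`, hence near an integer,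
and so `γ` is near an integer. -/
theorem agr_natCast {p m : ℕ} [Fact p.Prime] {k : Type} [Field k] {H : Law k} (hm : 1 ≤ m)
    (hk : Nat.card k = p ^ (m + 1)) (L : Curve p m H) (γ : AutF H.toFG)
    (hφ : L.φ γ = RingHom.id _) (N : ℕ) :
    ∃ a : ℕ, ∀ i < p ^ N, γ.cf i = ((a : ℕ) : EndF H.toFG).cf i := by
  have := charP_of_card hk
  have hlaw := L.law γ
  rw [hφ, Law.map_id, InvSeries.smul_eq_iff] at hlaw
  obtain ⟨a, ha⟩ := end_closure hm hk L.F L.vlow L.vX (EndF.mk (L.g γ).val hlaw.1) N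
  refine ⟨a, fun i hi => ?_⟩
  have h1 : Agr EndF.cf (p ^ N) (0 : EndF L.F.toFG)
      (EndF.mk (L.g γ).val hlaw.1 - (a : EndF L.F.toFG)) := by
    intro i hi
    rw [ha i hi, EndF.cf, EndF.val_zero, map_zero]
  have h2 := EndF.agr_add h1 (Agr.refl EndF.cf (p ^ N) (a : EndF L.F.toFG))
  rw [zero_add, sub_add_cancel] at h2
  have h3 := h2 i hi
  have h4 : PowerSeries.map PowerSeries.constantCoeff (L.g γ).val = γ.val :=
    congrArg InvSeries.val (L.gred γ)
  rw [EndF.cf, EndF.cf, EndF.val_mk, EndF.val_natCast] at h3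
  rw [AutF.cf, EndF.cf, EndF.val_natCast, ← h4, PowerSeries.coeff_map, h3,
    ← PowerSeries.coeff_map, map_multSeries, ← Law.map_toFG, L.Fred]

/-- An automorphism which is near an integer at every level is central. -/
theorem comm_of_agr {R : Type} [CommRing R] {H : FormalGroup R} [H.IsComm] (γ : AutF H)
    (h : ∀ N : ℕ, ∃ a : ℕ, ∀ i < N, γ.cf i = ((a : ℕ) : EndF H).cf i) (δ : AutF H) :
    γ * δ = δ * γ := by
  apply AutF.toUnits.injective
  rw [map_mul, map_mul]
  apply Units.ext
  rw [Units.val_mul, Units.val_mul]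
  apply EndF.cf_injective
  funext n
  obtain ⟨a, ha⟩ := h (n + 1)
  have h1 : Agr EndF.cf (n + 1) (a : EndF H) ((AutF.toUnits γ : (EndF H)ˣ) : EndF H) := ha
  have h2 := EndF.agr_mul h1 (Agr.refl EndF.cf (n + 1) ((AutF.toUnits δ : (EndF H)ˣ) : EndF H))
  have h3 := EndF.agr_mul (Agr.refl EndF.cf (n + 1) ((AutF.toUnits δ : (EndF H)ˣ) : EndF H)) h1
  rw [h2 n (Nat.lt_succ_self n), h3 n (Nat.lt_succ_self n), (Nat.cast_commute a _).eq]

end H124

/-- A form of weight zero on the curve is constant. -/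
theorem Curve.const_of_inv_zero {p m : ℕ} [Fact p.Prime] {k : Type} [Field k] {H : Law k}
    (hm : 1 ≤ m) (hk : Nat.card k = p ^ (m + 1)) (hH : HondaOver p (m + 1) H.toFG)
    (L : Curve p m H) (f : PowerSeries k) (hf : f ∈ L.inv 0) :
    f = PowerSeries.C (PowerSeries.constantCoeff f) := by
  by_contra hne
  have := H124.finite_of_card hk
  have := H124.charP_of_card hk
  have hnc : ∃ n, 1 ≤ n ∧ PowerSeries.coeff n f ≠ 0 := by
    by_contra hall
    push Not at hall
    apply hne
    ext n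
    rcases Nat.eq_zero_or_pos n with rfl | hn
    · rw [PowerSeries.coeff_zero_eq_constantCoeff_apply, PowerSeries.coeff_zero_C]
    · rw [hall n hn, PowerSeries.coeff_C, if_neg hn.ne']
  obtain ⟨M, hM⟩ := H124.exists_phi_eq_id L f hf hnc
  obtain ⟨γ, hγ, δ, hδ⟩ := exists_not_comm hk (by omega) hH M
  refine hδ (H124.comm_of_agr γ (fun N => ?_) δ)
  obtain ⟨a, ha⟩ := H124.agr_natCast hm hk L γ (hM γ hγ) N
  exact ⟨a, fun i hi => ha i (hi.trans (Nat.lt_pow_self (Fact.out : p.Prime).one_lt))⟩

end Vale.Agent.P261
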