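import Vale.Agent.P251.F.LTFinal
import Vale.Agent.P251.S.TowerN
import Vale.Agent.P251.C.Main

/-! # P261, leaf V2: cocycles of the towers lift in degrees `≥ h²`

Descent for the kernel complex `ker (Cob (T_{j+1}) → Cob (T_j))`. -/

open Vale.Agent.P251.F Vale.Agent.P251.C Vale.Agent.P251.S Vale.Agent.P251
  Vale.Agent.P251.F.LawRing

namespace Vale.Agent.P261

namespace H124

section KerG

variable {G : Type*} [Group G] [TopologicalSpace G]
  {M N : Type*} [AddCommGroup M] [DistribMulAction G M] [AddCommGroup N] [DistribMulAction G N]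

/-- The kernel of an equivariant map. -/
abbrev KerG (u : M →+[G] N) : AddSubgroup M := (u : M →+ N).ker

omit [TopologicalSpace G] in
theorem mem_kerG {u : M →+[G] N} {x : M} : x ∈ KerG u ↔ u x = 0 := Iff.rfl

noncomputable instance instActKer (u : M →+[G] N) : DistribMulAction G (KerG u) :=
  subAct (KerG u) fun g a ha => by
    rw [mem_kerG] at ha ⊢
    rw [map_smul, ha, smul_zero]

instance instDiscKer [DiscMod G M] (u : M →+[G] N) : DiscMod G (KerG u) where
  isOpen_stab x := by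
    have : {g : G | g • x = x} = {g : G | g • x.1 = x.1} := by
      ext g
      exact Subtype.ext_iff
    rw [this]
    exact DiscMod.isOpen_stab _

/-- The inclusion of the kernel. -/
def kerInc (u : M →+[G] N) : KerG u →+[G] M where
  toFun x := x.1
  map_smul' _ _ := rfl
  map_zero' := rfl
  map_add' _ _ := rfl

/-- Cocycles with values in the kernel. -/
theorem coch_ker (u : M →+[G] N) {s : ℕ} (h : HZero G (KerG u) s)
    (c : (Fin (s + 1) → G) → M) (hc : IsCoch G c) (hdc : dd c = 0) (hu : ∀ x, u (c x) = 0) :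
    ∃ m : (Fin s → G) → M, IsCoch G m ∧ (∀ x, u (m x) = 0) ∧ dd m = c := by
  obtain ⟨c', hc', hcc'⟩ := IsCoch.of_inj (kerInc u) Subtype.val_injective hc
    (fun x => ⟨⟨c x, hu x⟩, rfl⟩)
  obtain ⟨Y, hY, hdY⟩ := h c' hc' (by
    funext x
    apply Subtype.val_injective
    have h1 := congrFun (dd_mapG (kerInc u) c') x
    rw [show (fun x => kerInc u (c' x)) = c from funext hcc', hdc] at h1
    exact h1.symm)
  refine ⟨fun x => kerInc u (Y x), hY.map (kerInc u), fun x => (Y x).2, ?_⟩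
  rw [dd_mapG (kerInc u) Y, hdY]
  exact funext hcc'

/-- Degree one: invariants lift. -/
theorem hzero_ker_one (u : M →+[G] N)
    (hinv : ∀ y : N, (∀ g : G, g • y = y) → ∃ x : M, (∀ g : G, g • x = x) ∧ u x = y)
    (hM : HZero G M 1) : HZero G (KerG u) 1 := by
  intro F hF hd
  obtain ⟨Y, hY, hdY⟩ := hM (fun x => kerInc u (F x)) (hF.map (kerInc u)) (by
    rw [dd_mapG (kerInc u) F, hd]
    rfl)
  have h0 : dd (fun x => u (Y x)) = 0 := by
    rw [dd_mapG u Y, hdY]
    funext x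
    exact (F x).2
  have h1 : ∀ g h : G, u (Y fun _ => g) = u (Y fun _ => h) := by
    intro g h
    have := congrFun h0 (Fin.cons h (fun _ => g))
    rw [dd_cons, dd_one] at this
    simp only [Pi.zero_apply, sub_eq_zero] at this
    have e : (Fin.cons h (fun i : Fin 0 => i.elim0) : Fin 1 → G) = fun _ => h := by
      funext j
      fin_cases j
      rfl
    rw [e] at this
    exact this
  obtain ⟨x₀, hx₀, hux₀⟩ := hinv (u (Y fun _ => 1)) (by
    intro g
    rw [← map_smul, ← hY.equi g (fun _ => 1)]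
    exact h1 _ _)
  have hK : IsCoch G (fun _ : Fin 1 → G => x₀) :=
    ⟨IsLocallyConstant.const x₀, fun g _ => (hx₀ g).symm⟩
  have hdK : dd (fun _ : Fin 1 → G => x₀) = 0 := by
    funext x
    simp [dd, Fin.sum_univ_succ]
  obtain ⟨Z, hZ, hZY⟩ := IsCoch.of_inj (kerInc u) Subtype.val_injective (hY.sub hK) (by
    intro x
    refine ⟨⟨Y x - x₀, ?_⟩, rfl⟩
    rw [mem_kerG, map_sub, hux₀, sub_eq_zero]
    have hx : x = fun _ => x 0 := by
      funext i
      rw [Subsingleton.elim i 0]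
    rw [hx]
    exact h1 _ _)
  refine ⟨Z, hZ, ?_⟩
  funext x
  apply Subtype.val_injective
  have h2 := congrFun (dd_mapG (kerInc u) Z) x
  rw [show (fun x => kerInc u (Z x)) = Y - fun _ => x₀ from funext hZY, dd_sub, hdK, sub_zero,
    hdY] at h2
  exact h2.symm

/-- Vanishing of the cohomology of the kernel of a surjection of acyclic modules which is
surjective on invariants. -/
theorem hzero_ker [IsTopologicalGroup G] [DiscMod G M] (u : M →+[G] N)
    (hu : Function.Surjective u)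
    (hinv : ∀ y : N, (∀ g : G, g • y = y) → ∃ x : M, (∀ g : G, g • x = x) ∧ u x = y)
    (hM : ∀ a, HZero G M (a + 1)) (hN : ∀ a, HZero G N (a + 1)) (a : ℕ) :
    HZero G (KerG u) (a + 1) := by
  rcases a with _ | a
  · exact hzero_ker_one u hinv (hM 0)
  · exact HZero.left (kerInc u) u Subtype.val_injective hu (fun x => x.2)
      (fun b hb => ⟨⟨b, hb⟩, rfl⟩) (hM (a + 1)) (hN a)

end KerG

section Ctr

variable {T' T : Type} [CommRing T'] [CommRing T] [LawRing T'] [LawRing T]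
  [Framed T'] [Framed T] {φ : T' →+* T}

theorem pre_cone (hφ : IsLawHom φ) (hfr : InvSeries.map φ (Framed.fr : InvSeries T') = Framed.fr)
    {B : Type} [CommRing B] {n : ℕ} (c : Chain T n B) :
    (c.pre φ).cone = c.cone.pre φ := by
  have hσ : frσ (c.pt.comp φ) = frσ c.pt := by
    rw [frσ, ← InvSeries.map_map, hfr]
    rfl
  ext1
  · change act (frσ (c.pt.comp φ))⁻¹ (c.pt.comp φ) = (act (frσ c.pt)⁻¹ c.pt).comp φ
    rw [hσ, hφ.act]
  · funext i
    refine Fin.cases ?_ (fun i => ?_) i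
    · change (c.pre φ).cone.g 0 = c.cone.g 0
      rw [Chain.cone_g_zero, Chain.cone_g_zero]
    · change (c.pre φ).cone.g i.succ = c.cone.g i.succ
      rw [Chain.cone_g_succ, Chain.cone_g_succ]
      change c.g i * frσ (c.pt.comp φ) = _
      rw [hσ]

theorem mapRing_ctr (hφ : IsLawHom φ)
    (hfr : InvSeries.map φ (Framed.fr : InvSeries T') = Framed.fr) {n : ℕ}
    (x : Cob T' (n + 1)) :
    Cob.mapRing φ n (Cob.ctr T' n x) = Cob.ctr T n (Cob.mapRing φ (n + 1) x) := by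
  apply Cob.ext_ev
  intro B _ c
  rw [Cob.ev_mapRing, Cob.ev_ctr, Cob.ev_ctr, Cob.ev_mapRing, pre_cone hφ hfr]

end Ctr

section Main

variable {G : Type*} [Group G] [TopologicalSpace G] [IsTopologicalGroup G] [CompactSpace G]
variable {T' T : Type} [CommRing T'] [CommRing T] [LawRing T'] [LawRing T]
  [MulSemiringAction G T'] [MulSemiringAction G T] [LawAction G T'] [LawAction G T]
  {φ : T' →+* T}

/-- The differential on the kernel complex. -/
noncomputable def kd (hφ : IsLawHom φ) (hφG : ∀ (γ : G) (t : T'), φ (γ • t) = γ • φ t)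
    (w : ℤ) (n : ℕ) :
    KerG (wtMap hφ hφG n w) →+[G] KerG (wtMap hφ hφG (n + 1) w) where
  toFun x := ⟨wtD G T' n w x.1, by
    have hx : Cob.mapRing φ n x.1.1 = 0 := congrArg Subtype.val (mem_kerG.1 x.2)
    refine mem_kerG.2 (Subtype.ext ?_)
    change Cob.mapRing φ (n + 1) (Cob.d n x.1.1) = 0
    rw [Cob.mapRing_d hφ, hx, map_zero]⟩
  map_smul' γ x := Subtype.ext (map_smul (wtD G T' n w) γ x.1)
  map_zero' := Subtype.ext (map_zero (wtD G T' n w))
  map_add' x y := Subtype.ext (map_add (wtD G T' n w) x.1 y.1)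

/-- **Descent for the kernel complex.** -/
theorem descent_kernel [DiscMod G T'] [Framed T'] [Framed T] (hφ : IsLawHom φ)
    (hφG : ∀ (γ : G) (t : T'), φ (γ • t) = γ • φ t)
    (hfr : InvSeries.map φ (Framed.fr : InvSeries T') = Framed.fr)
    (hT' : ∀ a, HZero G T' (a + 1)) (hT : ∀ a, HZero G T (a + 1)) (w : ℤ)
    (hsurj : ∀ n, Function.Surjective (wtMap hφ hφG n w))
    (hinv : ∀ n (y : Cob.wt T n w), (∀ γ : G, γ • y = y) →
      ∃ x : Cob.wt T' n w, (∀ γ : G, γ • x = x) ∧ wtMap hφ hφG n w x = y) (s : ℕ)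
    (hM : HZero G (KerG (kd hφ hφG w 0)) (s + 1))
    (z : Cob T' (s + 1)) (hz : ∀ γ : G, γ • z = z) (hw : Cob.IsWt w z)
    (hdz : Cob.d (s + 1) z = 0) (hφz : Cob.mapRing φ (s + 1) z = 0) :
    ∃ y : Cob T' s, (∀ γ : G, γ • y = y) ∧ Cob.IsWt w y ∧ Cob.mapRing φ s y = 0 ∧
      Cob.d s y = z := by
  obtain ⟨y, hy, hdy⟩ := descent_rel (G := G)
    (A' := fun b => KerG (wtMap hφ hφG b w)) (A := fun b => KerG (wtMap hφ hφG b w))
    (fun b => kd hφ hφG w b) (fun b => kd hφ hφG w b)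
    (fun b => DistribMulActionHom.id G) (fun b x => rfl)
    (fun b x => Subtype.ext (Subtype.ext (Cob.d_d x.1.1)))
    (fun b x hx => by
      have hx1 : Cob.d (b + 1) x.1.1 = 0 :=
        congrArg Subtype.val (congrArg Subtype.val hx)
      have hx2 : Cob.mapRing φ (b + 1) x.1.1 = 0 := congrArg Subtype.val (mem_kerG.1 x.2)
      refine ⟨⟨⟨Cob.ctr T' b x.1.1, Cob.IsWt.ctr x.1.2⟩, ?_⟩, ?_⟩
      · refine mem_kerG.2 (Subtype.ext ?_)
        change Cob.mapRing φ b (Cob.ctr T' b x.1.1) = 0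
        rw [mapRing_ctr hφ hfr, hx2, map_zero]
      · exact Subtype.ext (Subtype.ext (Cob.exact_of_framed hx1)))
    (fun a b => hzero_ker (wtMap hφ hφG b w) (hsurj b) (hinv b)
      (fun a => hzero_wt (hT' a) w) (fun a => hzero_wt (hT a) w) a) s
    (fun c hc hdc hd => by
      obtain ⟨m, hm, hm0, hdm⟩ := coch_ker (kd hφ hφG w 0) hM c hc hdc hd
      exact ⟨m, hm, hm0, fun x => (congrFun hdm x).symm⟩)
    ⟨⟨z, hw⟩, mem_kerG.2 (Subtype.ext hφz)⟩
    (fun γ => Subtype.ext (Subtype.ext (hz γ))) (Subtype.ext (Subtype.ext hdz))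
  exact ⟨y.1.1, fun γ => congrArg Subtype.val (congrArg Subtype.val (hy γ)), y.1.2,
    congrArg Subtype.val (mem_kerG.1 y.2), congrArg Subtype.val (congrArg Subtype.val hdy)⟩

end Main

section NLevel

variable {G : Type*} [Group G]
variable {T' T N' N I : Type} [CommRing T'] [CommRing T] [LawRing T'] [LawRing T]
  [MulSemiringAction G T'] [MulSemiringAction G T] [LawAction G T'] [LawAction G T]
  [CommRing N'] [CommRing N] [LawRing N'] [LawRing N] [Fintype I] {φ : T' →+* T}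

omit [LawAction G T'] [LawAction G T] [MulSemiringAction G T'] [MulSemiringAction G T]
  [Group G] [Fintype I] in
theorem mapRing_pr (hφ : IsLawHom φ) (n : ℕ) (w : ℤ) (x : Cob T' n) :
    Cob.mapRing φ n (Cob.pr T' n w x) = Cob.pr T n w (Cob.mapRing φ n x) :=
  (Cob.pr_comm (Cob.mapRing φ n).toAddMonoidHom (fun _ _ h => Cob.IsWt.mapRing hφ h) w x).symm

theorem wtMap_surjective (hφ : IsLawHom φ) (hφG : ∀ (γ : G) (t : T'), φ (γ • t) = γ • φ t)
    (hs : Function.Surjective φ) (n : ℕ) (w : ℤ) :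
    Function.Surjective (wtMap hφ hφG n w) := by
  intro y
  obtain ⟨x, hx⟩ := Cob.mapRing_surjective hs (n := n) y.1
  refine ⟨⟨Cob.pr T' n w x, Cob.isWt_pr w x⟩, Subtype.ext ?_⟩
  change Cob.mapRing φ n (Cob.pr T' n w x) = y.1
  rw [mapRing_pr hφ, hx, Cob.pr_eq_self y.2]

omit [LawRing T'] [LawRing T] [LawAction G T'] [LawAction G T] [MulSemiringAction G T']
  [MulSemiringAction G T] [Group G] [LawRing N'] [LawRing N] in
theorem mapRing_sum {ι' : N' →+* T'} {ι : N →+* T} {b' : I → T'} {b : I → T} {ρ : N' →+* N}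
    (hbb : ∀ i, φ (b' i) = b i) (hρ : φ.comp ι' = ι.comp ρ) (n : ℕ) (c : I → Cob N' n) :
    Cob.mapRing φ n (∑ i, MvPolynomial.C (b' i) * Cob.mapRing ι' n (c i)) =
      ∑ i, MvPolynomial.C (b i) * Cob.mapRing ι n (Cob.mapRing ρ n (c i)) := by
  rw [map_sum]
  refine Finset.sum_congr rfl fun i _ => ?_
  rw [_root_.map_mul, Cob.mapRing_mapRing, hρ, ← Cob.mapRing_mapRing, Cob.mapRing,
    MvPolynomial.map_C, hbb]

omit [LawRing N'] [LawRing N] in
theorem wtMap_inv (hφ : IsLawHom φ) (hφG : ∀ (γ : G) (t : T'), φ (γ • t) = γ • φ t)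
    {ι' : N' →+* T'} (hfix' : ∀ (γ : G) (n : N'), γ • ι' n = ι' n) {b' : I → T'}
    (hbfix : ∀ (γ : G) i, γ • b' i = b' i)
    {ι : N →+* T} {b : I → T} {i₀ : I} (hb : InvBasis G ι b i₀)
    (hbb : ∀ i, φ (b' i) = b i) {ρ : N' →+* N} (hρ : φ.comp ι' = ι.comp ρ)
    (hρs : ∀ n, Function.Surjective (Cob.mapRing ρ n)) (n : ℕ) (w : ℤ) (y : Cob.wt T n w)
    (hy : ∀ γ : G, γ • y = y) :
    ∃ x : Cob.wt T' n w, (∀ γ : G, γ • x = x) ∧ wtMap hφ hφG n w x = y := by
  obtain ⟨c, hc⟩ := hb.exist_cob y.1 fun γ => congrArg Subtype.val (hy γ)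
  choose c' hc' using fun i => hρs n (c i)
  have h1 : ∀ γ : G, γ • (∑ i, MvPolynomial.C (b' i) * Cob.mapRing ι' n (c' i)) =
      ∑ i, MvPolynomial.C (b' i) * Cob.mapRing ι' n (c' i) := by
    intro γ
    rw [smul_eq_self_iff]
    intro m
    rw [InvBasis.coeff_sum, Finset.smul_sum]
    refine Finset.sum_congr rfl fun i _ => ?_
    rw [smul_mul', hbfix, hfix']
  refine ⟨⟨Cob.pr T' n w (∑ i, MvPolynomial.C (b' i) * Cob.mapRing ι' n (c' i)),
    Cob.isWt_pr w _⟩, fun γ => Subtype.ext ?_, Subtype.ext ?_⟩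
  · change γ • Cob.pr T' n w _ = Cob.pr T' n w _
    rw [← pr_smul, h1]
  · change Cob.mapRing φ n (Cob.pr T' n w _) = y.1
    rw [mapRing_pr hφ, mapRing_sum hbb hρ]
    simp only [hc']
    rw [← hc, Cob.pr_eq_self y.2]

variable [TopologicalSpace G] [IsTopologicalGroup G] [CompactSpace G]

/-- **Descent for the kernel complex of `N' → N`.** -/
theorem descent_N_kernel [DiscMod G T'] [Framed T'] [Framed T] (hφ : IsLawHom φ)
    (hφG : ∀ (γ : G) (t : T'), φ (γ • t) = γ • φ t)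
    (hfr : InvSeries.map φ (Framed.fr : InvSeries T') = Framed.fr)
    (hφs : Function.Surjective φ)
    (hT' : ∀ a, HZero G T' (a + 1)) (hT : ∀ a, HZero G T (a + 1))
    {ι' : N' →+* T'} (hι' : IsLawHom ι') {b' : I → T'} {i₀ : I} (hb' : InvBasis G ι' b' i₀)
    (hbfix : ∀ (γ : G) i, γ • b' i = b' i)
    {ι : N →+* T} {b : I → T} (hb : InvBasis G ι b i₀)
    (hbb : ∀ i, φ (b' i) = b i) {ρ : N' →+* N} (hρL : IsLawHom ρ)
    (hρ : φ.comp ι' = ι.comp ρ) (hρs : ∀ n, Function.Surjective (Cob.mapRing ρ n))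
    (w : ℤ) (s : ℕ) (hM : HZero G (KerG (kd hφ hφG w 0)) (s + 1))
    (z : Cob N' (s + 1)) (hw : Cob.IsWt w z) (hdz : Cob.d (s + 1) z = 0)
    (hρz : Cob.mapRing ρ (s + 1) z = 0) :
    ∃ y : Cob N' s, Cob.IsWt w y ∧ Cob.mapRing ρ s y = 0 ∧ Cob.d s y = z := by
  classical
  obtain ⟨y, hy, -, hφy, hdy⟩ := descent_kernel hφ hφG hfr hT' hT w
    (fun n => wtMap_surjective hφ hφG hφs n w)
    (fun n => wtMap_inv hφ hφG hb'.fix hbfix hb hbb hρ hρs n w) s hM
    (Cob.mapRing ι' (s + 1) z) (fun γ => hb'.fix_cob z γ) (Cob.IsWt.mapRing hι' hw)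
    (by rw [← Cob.mapRing_d hι', hdz, map_zero])
    (by rw [Cob.mapRing_mapRing, hρ, ← Cob.mapRing_mapRing, hρz, map_zero])
  obtain ⟨c, rfl⟩ := hb'.exist_cob y hy
  have h1 : Cob.d s (∑ i, MvPolynomial.C (b' i) * Cob.mapRing ι' s (c i)) =
      ∑ i, MvPolynomial.C (b' i) * Cob.mapRing ι' (s + 1) (Cob.d s (c i)) := by
    rw [map_sum]
    refine Finset.sum_congr rfl fun i _ => ?_
    rw [Cob.d_const_mul (fun B _ g x => hb'.const B g x i), Cob.mapRing_d hι']
  have h2 : Cob.mapRing ι' (s + 1) z =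
      ∑ i, MvPolynomial.C (b' i) * Cob.mapRing ι' (s + 1) (if i = i₀ then z else 0) := by
    rw [Finset.sum_eq_single i₀]
    · rw [if_pos rfl, hb'.one, MvPolynomial.C_1, one_mul]
    · intro i _ hi
      rw [if_neg hi, map_zero, mul_zero]
    · intro hi
      exact absurd (Finset.mem_univ i₀) hi
  rw [h1, h2] at hdy
  have h3 := congrFun (hb'.uniq_cob _ _ hdy) i₀
  rw [if_pos rfl] at h3
  rw [mapRing_sum hbb hρ] at hφy
  have h4 : (0 : Cob T s) = ∑ i, MvPolynomial.C (b i) * Cob.mapRing ι s 0 := by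
    simp
  rw [h4] at hφy
  have h5 : Cob.mapRing ρ s (c i₀) = 0 := congrFun (hb.uniq_cob _ _ hφy) i₀
  refine ⟨Cob.pr N' s w (c i₀), Cob.isWt_pr w _, ?_, ?_⟩
  · rw [mapRing_pr hρL, h5, map_zero]
  · rw [← Cob.pr_d, h3, Cob.pr_eq_self hw]

end NLevel

/-- The transition maps of the cobar complexes are surjective. -/
theorem mapRing_red_surjective (p h : ℕ) [Fact p.Prime] (j s : ℕ) :
    Function.Surjective (Cob.mapRing (NN.red p h (Nat.le_succ (j + 1))) s) := by
  intro y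
  obtain ⟨k, c, hc⟩ := exists_toNN p h (j + 1) s y
  obtain ⟨a, ha⟩ := (isUnit_toNN_vC p h (j + 2) s).pow k
  let x : Cob (NN p h (j + 2)) s := ((a⁻¹ : (Cob (NN p h (j + 2)) s)ˣ) : Cob (NN p h (j + 2)) s) *
    toNN p h (j + 2) s c
  have hx : toNN p h (j + 2) s (vC p h s) ^ k * x = toNN p h (j + 2) s c := by
    rw [← ha]
    exact Units.mul_inv_cancel_left a _
  refine ⟨x, ?_⟩
  refine ((isUnit_toNN_vC p h (j + 1) s).pow k).mul_right_injective ?_
  change toNN p h (j + 1) s (vC p h s) ^ k * _ = toNN p h (j + 1) s (vC p h s) ^ k * y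
  rw [hc, ← red_toNN p h s (Nat.le_succ (j + 1)) (vC p h s), ← map_pow, ← map_mul,
    ← red_toNN p h s (Nat.le_succ (j + 1)) c]
  exact congrArg _ hx

/-- Vanishing of the kernel complex in degrees `> h²`. -/
theorem kernel_exact {p h : ℕ} [Fact p.Prime] (hp : p ≠ 2) (hh : 1 ≤ h)
    (hd : ¬ (p - 1) ∣ h) (w : ℤ) (j s : ℕ) (hs : h * h ≤ s)
    (z : Cob (NN p h (j + 2)) (s + 1)) (hw : Cob.IsWt w z) (hdz : Cob.d (s + 1) z = 0)
    (hrz : Cob.mapRing (NN.red p h (Nat.le_succ (j + 1))) (s + 1) z = 0) :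
    ∃ y : Cob (NN p h (j + 2)) s, Cob.IsWt w y ∧
      Cob.mapRing (NN.red p h (Nat.le_succ (j + 1))) s y = 0 ∧ Cob.d s y = z := by
  obtain ⟨D⟩ := LTD.exists_galoisField p h (by omega)
  have hfin := D.finite
  have hchar := D.charP
  let := D.zalg
  obtain ⟨I, _, b, i₀, hb1⟩ := D.exists_basis
  have hI : ∀ j, InvBasis D.GG ((D.ιR j).comp (RJ.incR (GaloisField p h) p h (j + 1)))
      (fun i => D.ιR j (algebraMap (GaloisField p h) (RJ (GaloisField p h) p h (j + 1)) (b i)))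
      i₀ := fun j => RJ.invBasis b hb1 (D.isLawHom_ιR j) D.ιR_injective
        (fun γ r => D.smul_ιR γ r) (fun _ ht => D.exists_ιR ht)
  have hιL : ∀ j, IsLawHom ((D.ιR j).comp (RJ.incR (GaloisField p h) p h (j + 1))) :=
    fun j => IsLawHom.comp RJ.isLawHom_incR (D.isLawHom_ιR j)
  refine descent_N_kernel (G := D.GG) (T' := D.TT (j + 1)) (T := D.TT j)
    (D.isLawHom_redT (Nat.le_succ j)) (fun γ t => D.redT_smul (Nat.le_succ j) γ t)
    (D.map_redT_ser (Nat.le_succ j))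
    (OInv.mapE_surjective (EE.red_surjective (GaloisField p h) (h - 1) (Nat.le_succ j)))
    (D.hzero (j + 1)) (D.hzero j) (hιL (j + 1)) (hI (j + 1))
    (fun γ i => D.smul_ιR γ _) (hI j) (fun i => ?_) (isLawHom_NN_red p h _) ?_
    (mapRing_red_surjective p h j) w s ?_ z hw hdz hrz
  · have h1 := RingHom.congr_fun (D.redT_comp_kk (Nat.le_succ j)) (b i)
    rw [← D.ιR_comp_algebraMap, ← D.ιR_comp_algebraMap] at h1
    exact h1
  · apply NN.hom_ext
    rw [← Law.map_map, (hιL (j + 1)).law, (D.isLawHom_redT (Nat.le_succ j)).law, ← Law.map_map,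
      (isLawHom_NN_red p h _).law, (hιL j).law]
  · refine HondaOver.hZero_sq C.CV hp hh D.card hd D.honda _ (fun m => ?_) (s + 1) (by omega)
    have h1 : (p : D.TT (j + 1)) = 0 := D.p_eq_zero' (D.kk (j + 1))
    apply Subtype.val_injective
    apply Subtype.val_injective
    apply Subtype.val_injective
    change p • m.1.1.1 = 0
    rw [← Nat.cast_smul_eq_nsmul (D.TT (j + 1)), h1, zero_smul]

end H124

/-- Cocycles of weight `w` of the tower lift in degrees `≥ h²`. -/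
theorem exists_lift_cocycle {p h : ℕ} [Fact p.Prime] (hp : p ≠ 2) (hh : 1 ≤ h)
    (hd : ¬ (p - 1) ∣ h) (w : ℤ) (j s : ℕ) (hs : h * h ≤ s)
    (z : Cob (NN p h (j + 1)) s) (hw : Cob.IsWt w z) (hdz : Cob.d s z = 0) :
    ∃ z' : Cob (NN p h (j + 2)) s, Cob.IsWt w z' ∧ Cob.d s z' = 0 ∧
      Cob.mapRing (NN.red p h (Nat.le_succ (j + 1))) s z' = z := by
  obtain ⟨x₀, hx₀⟩ := H124.mapRing_red_surjective p h j s z
  have hρ := isLawHom_NN_red p h (Nat.le_succ (j + 1))
  obtain ⟨y, hyw, hry, hdy⟩ := H124.kernel_exact hp hh hd w j s hs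
    (Cob.d s (Cob.pr (NN p h (j + 2)) s w x₀)) (Cob.IsWt.d (Cob.isWt_pr w x₀)) (Cob.d_d _) (by
      rw [Cob.mapRing_d hρ, H124.mapRing_pr hρ, hx₀, Cob.pr_eq_self hw, hdz])
  refine ⟨Cob.pr (NN p h (j + 2)) s w x₀ - y, ?_, ?_, ?_⟩
  · exact (Cob.wt (NN p h (j + 2)) s w).sub_mem (Cob.isWt_pr w x₀) hyw
  · rw [map_sub, hdy, sub_self]
  · rw [map_sub, hry, sub_zero, H124.mapRing_pr hρ, hx₀, Cob.pr_eq_self hw]

end Vale.Agent.P261
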